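import Vale.Agent.P011UK.Opi
import Vale.Agent.P011UP.Par

/-!
The big cell, products over orthogonal sets of nodes, minimal coset representatives.
-/

set_option autoImplicit false
set_option linter.all false

namespace Vale.Agent.P011UGI

open Matrix Subgroup Vale.Agent.P183CH Vale.Agent.P183CH.RG Vale.Agent.P183A Vale.Agent.P011U
  Vale.Agent.P011UP Vale.Agent.P011UK

variable {R : RS} {K G : Type} [Field K] [Group G] {Γ : RG R K G}

theorem mem_eq {S : Subgroup G} {a b : G} (h : a ∈ S) (e : a = b) : b ∈ S := e ▸ h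

/-- lists of pairwise orthogonal nodes -/
def Or (R : RS) (l : List (Fin R.r)) : Prop := l.Pairwise fun a b => a ≠ b ∧ R.A a b = 0

theorem Or.z (hR : R.Ok) {l : List (Fin R.r)} (h : Or R l) {a b : Fin R.r} (ha : a ∈ l) (hb : b ∈ l)
    (e : a ≠ b) : R.A a b = 0 :=
  have : Std.Symm fun a b => a ≠ b ∧ R.A a b = 0 := ⟨fun a b e => ⟨e.1.symm, hR.A_zero_comm.1 e.2⟩⟩
  (List.Pairwise.forall h ha hb e).2

theorem Or.nodup {l : List (Fin R.r)} (h : Or R l) : l.Nodup := h.imp fun h => h.1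

variable (Γ) in
/-- products of root elements of the nodes in `l`; `e` is the sign -/
def Pr (e : ℤ) (l : List (Fin R.r)) (c : Fin R.r → K) : G :=
  (l.map fun j => Γ.x (e • R.α j) (c j)).prod

theorem Pr_cons (e : ℤ) (j : Fin R.r) (l : List (Fin R.r)) (c : Fin R.r → K) :
    Pr Γ e (j :: l) c = Γ.x (e • R.α j) (c j) * Pr Γ e l c := by simp [Pr]

theorem map_nonneg {J : Set (Fin R.r)} {w : R.Aut} (h : ∀ j ∈ J, 0 ≤ w (R.α j)) {γ : R.Q}
    (h0 : 0 ≤ γ) (hJ : R.In J γ) : 0 ≤ w γ := by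
  rw [RS.map_eq]
  refine Finset.sum_nonneg fun j _ => ?_
  by_cases e : j ∈ J
  · exact smul_nonneg (h0 j) (h j e)
  · rw [hJ j e, zero_smul]

theorem map_nonpos {J : Set (Fin R.r)} {w : R.Aut} (h : ∀ j ∈ J, w (R.α j) ≤ 0) {γ : R.Q}
    (h0 : 0 ≤ γ) (hJ : R.In J γ) : w γ ≤ 0 := by
  rw [RS.map_eq]
  refine Finset.sum_nonpos fun j _ => ?_
  by_cases e : j ∈ J
  · exact smul_nonpos_of_nonneg_of_nonpos (h0 j) (h j e)
  · rw [hJ j e, zero_smul]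

theorem wd_or (hR : R.Ok) {l : List (Fin R.r)} (h : Or R l) (j : Fin R.r) :
    (j ∈ l → R.wd l (R.α j) = -R.α j) ∧ ((∀ i ∈ l, R.A j i = 0) → R.wd l (R.α j) = R.α j) := by
  induction l with
  | nil => exact ⟨by simp, fun _ => rfl⟩
  | cons i l ih =>
    obtain ⟨h1, h2⟩ := List.pairwise_cons.1 h
    rw [RS.wd_cons, RS.mul_app]
    refine ⟨fun e => ?_, fun e => ?_⟩
    · rcases List.mem_cons.1 e with rfl | e
      · rw [(ih h2).2 fun i e => (h1 i e).2, hR.sE_α]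
      · rw [(ih h2).1 e, map_neg, hR.sE_eq, RS.pr_α, hR.A_zero_comm.1 (h1 j e).2]
        simp
    · rw [(ih h2).2 fun i e' => e i (List.mem_cons_of_mem _ e'), hR.sE_eq, RS.pr_α,
        e i List.mem_cons_self]
      simp

theorem lg_or (hR : R.Ok) {l : List (Fin R.r)} (h : Or R l) : R.Lg {j | j ∈ l} (R.wd l) :=
  ⟨RS.wd_mem fun _ e => e, fun j e => ((wd_or hR h j).1 e).trans_le (neg_nonpos.2 (RS.α_nonneg j))⟩

theorem inv_or (hR : R.Ok) {l : List (Fin R.r)} (h : Or R l) (γ : R.Q) :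
    γ ∈ l.map R.α ↔ γ ∈ R.Inv (R.wd l) := by
  rw [hR.Lg_Inv (lg_or hR h), List.mem_map]
  refine ⟨fun ⟨j, e, e'⟩ => e' ▸ ⟨hR.simple j, RS.α_nonneg j, RS.In_α e⟩, ?_⟩
  rintro ⟨h1, h2, h3⟩
  obtain ⟨w, hw, j, hj, rfl⟩ := hR.exists_conj_J h1 h3
  obtain ⟨m, hm, rfl⟩ := hR.exists_wd hw
  have : R.wd m (R.α j) = R.α j ∨ R.wd m (R.α j) = -R.α j := by
    clear h1 h2 h3 hw
    induction m with
    | nil => exact .inl rfl
    | cons i m ih =>
      have h4 : R.sE i (R.α j) = R.α j ∨ R.sE i (R.α j) = -R.α j := by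
        by_cases e : j = i
        · exact .inr (e ▸ hR.sE_α j)
        · rw [hR.sE_eq, RS.pr_α, h.z hR hj (hm i List.mem_cons_self) e]
          simp
      rw [RS.wd_cons, RS.mul_app]
      rcases ih fun i e => hm i (List.mem_cons_of_mem _ e) with e | e
      · rwa [e]
      · rw [e, map_neg, neg_eq_iff_eq_neg, neg_inj]
        exact h4.symm
  rcases this with e | e
  · exact ⟨j, hj, e.symm⟩
  · exact (hR.not_both h1 h2 (e.trans_le (neg_nonpos.2 (RS.α_nonneg j)))).elim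

variable (hΓ : Γ.Ok)
include hΓ

theorem utv_uq {u t v u' t' v' : G} (hu : u ∈ Γ.U) (ht : t ∈ Γ.T) (hv : v ∈ Γ.V) (hu' : u' ∈ Γ.U)
    (ht' : t' ∈ Γ.T) (hv' : v' ∈ Γ.V) (e : u * t * v = u' * t' * v') : u = u' ∧ v = v' := by
  obtain ⟨h1, h2⟩ := hΓ.tri _ (hΓ.nm_T_X _ _ (inv_mem ht') _ (mul_mem (inv_mem hu') hu)) _
    (mul_mem (inv_mem ht') ht) (mem_eq (mul_mem hv' (inv_mem hv)) (by
      rw [show v' = (u' * t')⁻¹ * (u * t * v) by rw [e]; group]; group))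
  obtain rfl := inv_mul_eq_one.1 h2
  obtain rfl : u' = u := inv_mul_eq_one.1 (conj_eq_one_iff.1 h1)
  exact ⟨rfl, mul_left_cancel e⟩

variable (hR : R.Ok)
include hR

theorem comm_x {i j : Fin R.r} (ne : i ≠ j) (h : R.A i j = 0) {e e' : ℤ} (he : e = 1 ∨ e = -1)
    (he' : e' = 1 ∨ e' = -1) (t u : K) : Commute (Γ.x (e • R.α i) t) (Γ.x (e' • R.α j) u) := by
  have h' := hR.A_zero_comm.1 h
  have e1 : R.sE i (R.α j) = R.α j := by simp [hR.sE_eq, RS.pr_α, h']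
  have e2 : R.sE j (R.α i) = R.α i := by simp [hR.sE_eq, RS.pr_α, h]
  have a : ∀ t u, Commute (Γ.x (R.α i) t) (Γ.x (R.α j) u) := fun t u => by
    have c := hΓ.comm _ (hR.simple i) _ (hR.simple j) (RS.α_nonneg i) (RS.α_nonneg j) t u
    have d := RG.X_le (K := ⊥) (fun γ q m _ => by
      obtain ⟨a, b, a0, b0, e⟩ := q
      have s := (hR.sign _ (hR.map_mem (RS.sE_mem_W i) m)).2
      rw [e, map_add, map_nsmul, map_nsmul, hR.sE_α, e1] at s
      rcases s with s | s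
      · exact absurd (s i) (by simp [RS.α_self, RS.α_ne ne, a0.ne'])
      · exact absurd (s j) (by simp [RS.α_self, RS.α_ne ne.symm, b0.ne'])) c
    exact commutatorElement_eq_one_iff_commute.1 (Subgroup.mem_bot.1 d)
  have b := comm_conj hΓ hR (RG.rep_n i) (hR.simple i) (hR.simple j) a
  have c := comm_conj hΓ hR (RG.rep_n j) (hR.simple i) (hR.simple j) a
  rw [hR.sE_α, e1] at b
  have d := comm_conj hΓ hR (RG.rep_n j) (hR.neg_mem (hR.simple i)) (hR.simple j) b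
  rw [hR.sE_α, e2] at c
  rw [hR.sE_α, map_neg, e2] at d
  rcases he with rfl | rfl <;> rcases he' with rfl | rfl <;> simp only [one_smul, neg_smul]
  exacts [a _ _, c _ _, b _ _, d _ _]

theorem comm_Pr {i : Fin R.r} {l : List (Fin R.r)} (h : ∀ j ∈ l, i ≠ j ∧ R.A i j = 0) {e e' : ℤ}
    (he : e = 1 ∨ e = -1) (he' : e' = 1 ∨ e' = -1) (t : K) (c : Fin R.r → K) :
    Commute (Γ.x (e • R.α i) t) (Pr Γ e' l c) :=
  Commute.list_prod_right _ _ fun x hx => by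
    obtain ⟨j, hj, rfl⟩ := List.mem_map.1 hx
    exact comm_x hΓ hR (h j hj).1 (h j hj).2 he he' _ _

theorem Pr_perm {l : List (Fin R.r)} (h : Or R l) {π : Equiv.Perm (Fin R.r)}
    (hπ : ∀ j ∈ l, π j ∈ l) {e : ℤ} (he : e = 1 ∨ e = -1) (c : Fin R.r → K) :
    Pr Γ e (l.map π) c = Pr Γ e l c := by
  refine (List.Perm.prod_eq' ((((List.subperm_of_subset (h.nodup.map π.injective) fun j m => by
    obtain ⟨j, m', rfl⟩ := List.mem_map.1 m
    exact hπ j m').perm_of_length_le (by simp)).symm).map _) ?_).symm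
  exact List.pairwise_map.2 (h.imp fun h => comm_x hΓ hR h.1 h.2 he he _ _)

theorem nd_perm {l : List (Fin R.r)} (h : Or R l) {π : Equiv.Perm (Fin R.r)}
    (hπ : ∀ j ∈ l, π j ∈ l) : Γ.nd (l.map π) = Γ.nd l := by
  refine (List.Perm.prod_eq' ((((List.subperm_of_subset (h.nodup.map π.injective) fun j m => by
    obtain ⟨j, m', rfl⟩ := List.mem_map.1 m
    exact hπ j m').perm_of_length_le (by simp)).symm).map _) ?_).symm
  exact List.pairwise_map.2 (h.imp fun h => comm_n hΓ hR h.1 h.2)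

/-- the Gauss decomposition for orthogonal nodes -/
theorem gauss {l : List (Fin R.r)} (h : Or R l) {c e : Fin R.r → K}
    (h1 : ∀ j ∈ l, 1 - c j * e j ≠ 0) : ∃ a, ∃ t ∈ Γ.T, ∃ b,
      (Pr Γ 1 l c)⁻¹ * Pr Γ (-1) l e = Pr Γ (-1) l a * t * (Pr Γ 1 l b)⁻¹ := by
  classical
  induction l with
  | nil => exact ⟨0, 1, one_mem _, 0, by simp [Pr]⟩
  | cons j l ih =>
    obtain ⟨h2, h3⟩ := List.pairwise_cons.1 h
    obtain ⟨a, t, ht, b, e1⟩ := ih h3 fun i hi => h1 i (List.mem_cons_of_mem _ hi)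
    have e2 := (s2 hΓ hR j).ga (-c j) (e j) (Units.mk0 _ (h1 j List.mem_cons_self)) (by
      rw [Units.val_mk0]; ring)
    generalize Units.mk0 _ (h1 j List.mem_cons_self) = d at e2
    have hj := hR.simple j
    have hn : ∀ (s : ℤ) (f : Fin R.r → K) y, Pr Γ s l (Function.update f j y) = Pr Γ s l f :=
      fun s f y => congrArg List.prod (List.map_congr_left fun i hi => by
        rw [Function.update_of_ne (h2 i hi).1.symm])
    have c1 : ∀ s s' : ℤ, s = 1 ∨ s = -1 → s' = 1 ∨ s' = -1 → ∀ y f,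
        Commute (Γ.x (s • R.α j) y) (Pr Γ s' l f) := fun s s' => comm_Pr hΓ hR h2
    have c2 : Commute (Γ.h j d) (Pr Γ (-1) l a) := by
      have := (s2 hΓ hR j).h_eq d
      have p := fun y => c1 1 _ (.inl rfl) (.inr rfl) y a
      have m := fun y => c1 (-1) _ (.inr rfl) (.inr rfl) y a
      simp only [one_smul, neg_smul] at p m
      exact this ▸ (((m _).mul_left (p _)).mul_left (m _)).mul_left (p _)
    have e3 := hΓ.tx (inv_mem ht) hj (-c j / d)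
    refine ⟨Function.update a j (e j / d), _, mul_mem (h_mem j d) ht,
      Function.update b j (-(hΓ.chi (R.α j) t⁻¹ * (-c j / d))), ?_⟩
    have p1 := (c1 1 1 (.inl rfl) (.inl rfl) (-c j) c).inv_right
    have p2 := (c1 (-1) 1 (.inr rfl) (.inl rfl) (e j) c).inv_right
    have p3 := c1 1 (-1) (.inl rfl) (.inr rfl) (-c j / d) a
    have p4 := c1 1 1 (.inl rfl) (.inl rfl) (-(hΓ.chi (R.α j) t⁻¹ * (-c j / d))) b
    simp only [Pr_cons, hn, Function.update_self, one_smul, neg_smul] at p1 p2 p3 p4 ⊢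
    rw [p4.eq, hΓ.x_neg hj, ← e3, _root_.mul_inv_rev, ← hΓ.x_neg hj, ← p1.eq, mul_assoc,
      ← mul_assoc _ (Γ.x (-R.α j) (e j)), ← p2.eq, mul_assoc, ← mul_assoc (Γ.x _ _), e1, e2]
    calc _ = Γ.x (-R.α j) (e j / d) * Γ.h j d * (Γ.x (R.α j) (-c j / d) * Pr Γ (-1) l a) * t *
          (Pr Γ 1 l b)⁻¹ := by group
      _ = Γ.x (-R.α j) (e j / d) * (Γ.h j d * Pr Γ (-1) l a) * Γ.x (R.α j) (-c j / d) * t *
          (Pr Γ 1 l b)⁻¹ := by rw [p3.eq]; group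
      _ = _ := by rw [c2.eq]; group

omit hΓ in
theorem Pr_mem {l : List (Fin R.r)} {e : ℤ} (he : e = 1 ∨ e = -1) {S : Set R.Q}
    (h : ∀ j ∈ l, e • R.α j ∈ S) (c : Fin R.r → K) : Pr Γ e l c ∈ Γ.X S :=
  list_prod_mem fun x hx => by
    obtain ⟨j, hj, rfl⟩ := List.mem_map.1 hx
    refine x_mem ?_ (h j hj) _
    rcases he with rfl | rfl
    · simpa using hR.simple j
    · simpa using hR.neg_mem (hR.simple j)

/-- minimal coset representatives -/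
theorem min_rep (J : Set (Fin R.r)) (y : G) : ∃ m v, Γ.Rep m v ∧ (∀ j ∈ J, 0 ≤ v (R.α j)) ∧
    ∃ u ∈ Γ.X (R.Inv v⁻¹), ∃ p ∈ PJ Γ J, y = u * m * p := by
  have key : ∀ (l : ℕ) n w, Γ.Rep n w → R.len w = l → ∃ m v, Γ.Rep m v ∧
      (∀ j ∈ J, 0 ≤ v (R.α j)) ∧ ∃ p ∈ PJ Γ J, n = m * p := fun l => by
    induction l using Nat.strong_induction_on with
    | _ l ih =>
      intro n w hn e
      by_cases h : ∀ j ∈ J, 0 ≤ w (R.α j)
      · exact ⟨n, w, hn, h, 1, one_mem _, (mul_one _).symm⟩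
      push Not at h
      obtain ⟨j, hj, h⟩ := h
      have h1 := hR.len_mul_neg hn.mem_W ((hR.sign' hn.mem_W (hR.simple j)).resolve_left h)
      obtain ⟨m, v, h2, h3, p, hp, e'⟩ := ih _ (by omega) _ _ (hn.mul (rep_n j)) rfl
      exact ⟨m, v, h2, h3, _, mul_mem hp (inv_mem (GJ_le_PJ (hΓ.NJ_le hR (n_mem_NJ hj)))), by
        rw [← mul_assoc, ← e', mul_inv_cancel_right]⟩
  obtain ⟨u, hu, n, w, hn, u', hu', rfl⟩ := hΓ.bruhat hR y
  obtain ⟨m, v, h2, h3, p, hp, rfl⟩ := key _ n w hn rfl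
  obtain ⟨b, hb, a, ha, rfl⟩ := hΓ.split_UJ' hR (J := Set.univ) h2.inv.mem_W (UJ_univ (Γ := Γ) ▸ hu)
  exact ⟨m, v, h2, h3, b, X_mono (fun _ e _ => e.2) hb, _, mul_mem (mul_mem (U_le_PJ
    (hΓ.conj_U hR h2.inv (X_mono (fun _ e _ => e.2) ha))) hp)
      (U_le_PJ (X_le_U (RS.cl_Inv _).1 hu')), by group⟩

variable {F : Type} [FunLike F G G] [MonoidHomClass F G G] {ψ : F} {π : Equiv.Perm (Fin R.r)}

theorem map_x {f : R.Q → R.Q} (hf : ∀ i γ, f (R.s i γ) = R.s (π i) (f γ))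
    (hn : ∀ i, Γ.Rep (ψ (Γ.n i)) (R.sE (π i)))
    (h0 : ∀ i, f (R.α i) ∈ R.Φ ∧ ∀ u, ∃ v, ψ (Γ.x (R.α i) u) = Γ.x (f (R.α i)) v) :
    ∀ γ ∈ R.Φ, f γ ∈ R.Φ ∧ ∀ u, ∃ v, ψ (Γ.x γ u) = Γ.x (f γ) v :=
  rt_ind hR h0 fun i γ hγ ⟨h1, h2⟩ => ⟨hf i γ ▸ hR.refl _ _ h1, fun u => by
    obtain ⟨a, ha⟩ := hΓ.rep_conj hR (rep_n i) hγ
    obtain ⟨b, hb⟩ := hΓ.rep_conj hR (hn i) h1
    obtain ⟨v, hv⟩ := h2 ((a⁻¹ : Kˣ) * u)
    rw [hR.sE_apply] at ha hb
    exact ⟨b * v, by rw [hf, ← (hb v).1, ← hv, ← map_inv, ← map_mul, ← map_mul, (ha _).1,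
      Units.mul_inv_cancel_left]⟩⟩

omit hΓ in
theorem map_rep (hπ : Dg R π) (hn : ∀ i, Γ.Rep (ψ (Γ.n i)) (R.sE (π i)))
    (hT : ∀ t ∈ Γ.T, ψ t ∈ Γ.T) {n : G} {w : R.Aut} (h : Γ.Rep n w) :
    ∃ w', Γ.Rep (ψ n) w' ∧ ∀ γ, w' (pm π γ) = pm π (w γ) :=
  h.ind (P := fun n w => ∃ w', Γ.Rep (ψ n) w' ∧ ∀ γ, w' (pm π γ) = pm π (w γ))
    (fun i => ⟨_, hn i, fun γ => by rw [hR.sE_apply, hR.sE_apply, pm_s hπ]⟩)
    (fun t ht => ⟨1, rep_T (hT t ht), fun _ => rfl⟩)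
    (fun _ _ _ _ _ _ ⟨_, a, b⟩ ⟨_, c, d⟩ => ⟨_, map_mul ψ _ _ ▸ a.mul c, fun γ => by
      rw [RS.mul_app, RS.mul_app, d, b]⟩)
    fun _ w _ ⟨w', a, b⟩ => ⟨_, map_inv ψ _ ▸ a.inv, fun γ => w'.injective (by
      rw [RS.app_inv, b, RS.app_inv])⟩

end Vale.Agent.P011UGI
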