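import Vale.Agent.P011UGI.Kit
import Vale.Agent.P011UGA.IF
import Vale.Agent.P011UV.Par

/-!
Isotropic forms have a frame with an isotropic node.
-/

set_option autoImplicit false
set_option linter.all false

namespace Vale.Agent.P011UGI

open Matrix Subgroup Vale.Agent.P183CH Vale.Agent.P183CH.RG Vale.Agent.P183A Vale.Agent.P011U
  Vale.Agent.P011UP Vale.Agent.P011UK Vale.Agent.P011UGA Vale.Agent.P011L

variable {R : RS} {k K G : Type} [Field k] [Field K] [Algebra k K] [Group G]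

/-- the abstract form of `Opw` -/
structure OW (Γ : RG R K G) (A : (K ≃ₐ[k] K) →* MulAut G) (ε : (K ≃ₐ[k] K) →* ℤˣ)
    (π : (K ≃ₐ[k] K) →* Equiv.Perm (Fin R.r)) (d : Fin R.r → Kˣ) : Prop where
  hΓ : Γ.Ok
  hR : R.Ok
  dg : ∀ σ, Dg R (π σ)
  pos : ∀ σ i u, ε σ = 1 → A σ (Γ.x (R.α i) u) = Γ.x (R.α (π σ i)) (σ u) ∧
    A σ (Γ.x (-R.α i) u) = Γ.x (-R.α (π σ i)) (σ u)
  neg : ∀ σ i u, ε σ = -1 → A σ (Γ.x (R.α i) u) = Γ.x (-R.α (π σ i)) (d (π σ i) * σ u) ∧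
    A σ (Γ.x (-R.α i) u) = Γ.x (R.α (π σ i)) (((d (π σ i))⁻¹ : Kˣ) * σ u)

/-- fixed by the kernel of `ε` -/
def Fx (A : (K ≃ₐ[k] K) →* MulAut G) (ε : (K ≃ₐ[k] K) →* ℤˣ) (x : G) : Prop :=
  ∀ σ, ε σ = 1 → A σ x = x

/-- the chamber of `x` is opposite to its image -/
def Gd (Γ : RG R K G) (ψ : MulAut G) (x : G) : Prop :=
  ∃ u ∈ Γ.U, ∃ t ∈ Γ.T, ∃ v ∈ Γ.V, x⁻¹ * ψ x = u * t * v

/-- the parabolic subgroup of type `J` at `y` is stable -/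
def St (Γ : RG R K G) (A : (K ≃ₐ[k] K) →* MulAut G) (J : Set (Fin R.r)) (y : G) : Prop :=
  ∀ σ, ∀ p ∈ PJ Γ J, y⁻¹ * A σ (y * p * y⁻¹) * y ∈ PJ Γ J

variable {Γ : RG R K G} {A : (K ≃ₐ[k] K) →* MulAut G} {ε : (K ≃ₐ[k] K) →* ℤˣ}
  {π : (K ≃ₐ[k] K) →* Equiv.Perm (Fin R.r)} {d : Fin R.r → Kˣ} {σ θ : K ≃ₐ[k] K} {x y u : G}

theorem Am (σ τ : K ≃ₐ[k] K) (x : G) : A σ (A τ x) = A (σ * τ) x := by rw [map_mul]; rfl

theorem Fx.mul (h : Fx A ε x) (h' : Fx A ε y) : Fx A ε (x * y) := fun σ e => by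
  rw [map_mul, h σ e, h' σ e]

theorem Fx.inv (h : Fx A ε x) : Fx A ε x⁻¹ := fun σ e => by rw [map_inv, h σ e]

theorem Fx.eq (h : Fx A ε x) (e : ε σ = ε θ) : A σ x = A θ x := by
  nth_rewrite 2 [← h (θ⁻¹ * σ) (by rw [map_mul, map_inv, e, inv_mul_cancel])]
  rw [Am, mul_inv_cancel_left]

theorem St.mul {J : Set (Fin R.r)} (h : St Γ A J x) (hy : y ∈ PJ Γ J) : St Γ A J (x * y) :=
  fun σ p hp => by
    have := mul_mem (mul_mem (inv_mem hy) (h σ _ (mul_mem (mul_mem hy hp) (inv_mem hy)))) hy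
    simpa only [_root_.mul_inv_rev, mul_assoc] using this

namespace OW

variable (H : OW Γ A ε π d)
include H

theorem std (e : ε σ = 1) : Std Γ (A σ) σ 1 1 (π σ) :=
  ⟨H.dg σ, fun i u => by simpa using H.pos σ i u e⟩

theorem pX (e : ε σ = 1) {S S' : Set R.Q} (hS : ∀ γ ∈ S, γ ∈ R.Φ → pm (π σ) γ ∈ S')
    (h : u ∈ Γ.X S) : A σ u ∈ Γ.X S' := by simpa using std_X H.hΓ (H.std e) H.hR hS h

theorem pT (e : ε σ = 1) (t : G) (h : t ∈ Γ.T) : A σ t ∈ Γ.T := by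
  simpa using std_T H.hΓ (H.std e) h

theorem pn (e : ε σ = 1) (i : Fin R.r) : A σ (Γ.n i) = Γ.n (π σ i) := by
  simpa using std_n H.hΓ (H.std e) i

theorem prep (e : ε σ = 1) {n : G} {w : R.Aut} (h : Γ.Rep n w) :
    ∃ w', Γ.Rep (A σ n) w' ∧ ∀ γ, w' (pm (π σ) γ) = pm (π σ) (w γ) :=
  map_rep H.hR (H.dg σ) (fun i => H.pn e i ▸ rep_n _) (H.pT e) h

theorem nsl (e : ε θ = -1) (i : Fin R.r) (t : Kˣ) : ∃ s ∈ Γ.T,
    A θ (Γ.h i t * Γ.n i) = s * Γ.n (π θ i) := by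
  refine ⟨_, h_mem _ _, Eq.trans ?_ ((s2 H.hΓ H.hR (π θ i)).w_eq
    (d (π θ i) * Units.map (θ : K →* K) t))⟩
  rw [← H.hΓ.sl, map_mul, map_mul, (H.neg θ i _ e).1, (H.neg θ i _ e).2]
  simp [mul_comm]

theorem nn (e : ε θ = -1) (i : Fin R.r) : Γ.Rep (A θ (Γ.n i)) (R.sE (π θ i)) := by
  obtain ⟨s, hs, h⟩ := H.nsl e i 1
  rw [map_one, one_mul] at h
  exact h ▸ (rep_n _).T_mul hs

theorem nT (e : ε θ = -1) (t : G) (h : t ∈ Γ.T) : A θ t ∈ Γ.T :=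
  (closure_le (Γ.T.comap (A θ).toMonoidHom)).2 (by
    rintro _ ⟨i, t, rfl⟩
    obtain ⟨s, hs, h⟩ := H.nsl e i t
    rw [map_mul, ← eq_mul_inv_iff_mul_eq] at h
    show A θ _ ∈ Γ.T
    rw [h]
    exact (H.hΓ.rep_div H.hR ((rep_n _).T_mul hs) (H.nn e i)).1) h

theorem nX (e : ε θ = -1) {S S' : Set R.Q} (hS : ∀ γ ∈ S, γ ∈ R.Φ → -pm (π θ) γ ∈ S')
    (h : u ∈ Γ.X S) : A θ u ∈ Γ.X S' := by
  have := map_x H.hΓ H.hR (ψ := A θ) (f := fun γ => -pm (π θ) γ) (fun i γ => by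
    rw [pm_s (H.dg θ), ← H.hR.sE_apply, ← H.hR.sE_apply, map_neg]) (H.nn e) fun i => by
      rw [pm_α]
      exact ⟨H.hR.neg_mem (H.hR.simple _), fun u => ⟨_, (H.neg θ i u e).1⟩⟩
  refine (X_le (K := (Γ.X S').comap (A θ).toMonoidHom) fun γ h1 h2 a => ?_) h
  obtain ⟨v, hv⟩ := (this γ h2).2 a
  show A θ _ ∈ Γ.X S'
  exact mem_eq (x_mem (this γ h2).1 (hS γ h1 h2) v) hv.symm

theorem nU (e : ε θ = -1) (h : u ∈ Γ.U) : A θ u ∈ Γ.V :=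
  H.nX e (fun _ h _ => neg_nonpos.2 (pm_nonneg h)) h

theorem nV (e : ε θ = -1) (h : u ∈ Γ.V) : A θ u ∈ Γ.U :=
  H.nX e (S := {γ | γ ≤ 0}) (S' := {γ | 0 ≤ γ}) (fun γ h _ =>
    (neg_nonneg.2 fun _ => h _ : 0 ≤ -pm (π θ) γ)) h

theorem gd_U (e : ε θ = -1) (h : Gd Γ (A θ) x) (hu : u ∈ Γ.U) : Gd Γ (A θ) (x * u) := by
  obtain ⟨a, ha, t, ht, v, hv, h⟩ := h
  refine ⟨_, mul_mem (inv_mem hu) ha, t, ht, _, mul_mem hv (H.nU e hu), ?_⟩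
  rw [map_mul, inv_mul_eq_iff_eq_mul.1 h]
  group

/-- a good fixed chamber gives a frame -/
theorem frame (e : ε θ = -1) (hx : Fx A ε x) (h : Gd Γ (A θ) x) :
    ∃ u ∈ Γ.U, Fx A ε u ∧ ∃ s, A θ (x * u) = x * u * H.hΓ.hT s := by
  obtain ⟨u, hu, t, ht, v, hv, h⟩ := h
  obtain ⟨s, rfl⟩ := H.hΓ.exists_hT ht
  refine ⟨u, hu, fun σ e' => (utv_uq H.hΓ (H.pX e' (fun _ h _ => pm_nonneg h) hu) (H.pT e' _ ht)
    (H.pX e' (S := {γ | γ ≤ 0}) (S' := {γ | γ ≤ 0}) (fun _ h _ _ => h _) hv) hu ht hv ?_).1, s, ?_⟩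
  · rw [← map_mul, ← map_mul, ← h, map_mul, map_inv, hx σ e', Am,
      hx.eq (θ := θ) (by rw [map_mul, e', one_mul])]
  · have h1 := (utv_uq H.hΓ (inv_mem (H.nV e hv)) (inv_mem (H.nT e _ ht)) (inv_mem (H.nU e hu))
      hu ht hv (by
        rw [← _root_.mul_inv_rev, ← _root_.mul_inv_rev, ← map_mul, ← map_mul, ← mul_assoc, ← h,
          map_mul, map_inv, Am, hx (θ * θ) (by simp [e])]
        group)).2
    rw [map_mul, inv_mul_eq_iff_eq_mul.1 h, ← h1]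
    group

theorem fx_nd {l : List (Fin R.r)} (hl : Or R l) (hπ : ∀ σ, ∀ j ∈ l, π σ j ∈ l) :
    Fx A ε (Γ.nd l) := fun σ e => by
  nth_rewrite 2 [← nd_perm H.hΓ H.hR hl (hπ σ)]
  rw [RG.nd, RG.nd, map_list_prod, List.map_map, List.map_map]
  exact congrArg _ (List.map_congr_left fun j _ => H.pn e j)

theorem step (e : ε θ = -1)
    (no : ∀ g s j, Fx A ε g → A θ g = g * H.hΓ.hT s → ¬Iso ε π j (nd d s j))
    {l : List (Fin R.r)} (hl : Or R l) (hπ : ∀ σ, ∀ j ∈ l, π σ j ∈ l) (hx : Fx A ε x)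
    (h : Gd Γ (A θ) x) : Gd Γ (A θ) (x * Γ.nd l) := by
  have hΓ := H.hΓ
  have hR := H.hR
  obtain ⟨u, hu, h1, s, h2⟩ := H.frame e hx h
  have lg := lg_or hR hl
  have rn : Γ.Rep (Γ.nd l)⁻¹ (R.wd l) := hR.Lg_inv lg ▸ (rep_nd l).inv
  obtain ⟨b, hb, a, ha, e1⟩ := hΓ.split_UJ' hR (J := Set.univ) rn.mem_W
    (UJ_univ (Γ := Γ) ▸ inv_mem hu)
  replace hb := X_mono (S' := R.Inv (R.wd l)) (fun _ e _ => e.2) hb
  replace ha := X_mono (fun _ e _ => e.2) ha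
  rw [show x * Γ.nd l = x * u * b * Γ.nd l * ((Γ.nd l)⁻¹ * a * (Γ.nd l)⁻¹⁻¹) by
    rw [mul_assoc x, show u * b = a⁻¹ by rw [← inv_inv u, e1]; group]; group]
  refine H.gd_U e ?_ (hΓ.conj_U hR rn ha)
  have h3 : Fx A ε b := fun σ e' => by
    obtain ⟨w', r1, r2⟩ := H.prep e' (rep_nd l)
    rw [H.fx_nd hl hπ σ e'] at r1
    obtain rfl := hΓ.rep_unique hR (rep_nd l) r1
    have h4 := mul_mem (inv_mem hb) (H.pX e' (S' := R.Inv (R.wd l)) (fun γ h _ =>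
      ⟨pm_mem hR (H.dg σ) γ h.1, pm_nonneg h.2.1, r2 γ ▸ fun _ => h.2.2 _⟩) hb)
    have h5 := mul_mem ha (inv_mem (H.pX e' (fun γ h _ => (⟨pm_mem hR (H.dg σ) γ h.1,
      pm_nonneg h.2.1, r2 γ ▸ pm_nonneg h.2.2⟩ : _ ∧ _ ∧ 0 ≤ R.wd l _)) ha))
    have h6 := h1.inv σ e'
    rw [e1, map_mul] at h6
    rw [show a * (A σ a)⁻¹ = b⁻¹ * A σ b by rw [eq_mul_inv_of_mul_eq h6]; group] at h5
    have h7 := (hΓ.X_inf hR (RS.cl_Inv _) (RS.cl_pos _)).le ⟨h4, h5⟩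
    exact (inv_mul_eq_one.1 (mem_bot.1 ((X_le fun γ h _ => (hR.not_both
      (hR.map_mem rn.mem_W h.1.1) h.2.2.2 h.1.2.2).elim : _ ≤ ⊥) h7))).symm
  haveI : Nonempty (Fin R.r) := ⟨⟨0, hR.pos⟩⟩
  have nd' := hl.nodup.map RS.α_inj
  obtain ⟨c', rfl⟩ := hΓ.exists_P hR (RS.cl_Inv _) nd' (inv_or hR hl) hb
  have hP : ∀ c : Fin R.r → K, Pr Γ 1 l c = Γ.P (l.map R.α) fun γ => c (Function.invFun R.α γ) :=
    fun c => by
      rw [Pr, RG.P, List.map_map]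
      exact congrArg _ (List.map_congr_left fun j _ => by
        simp only [one_smul, Function.comp_apply, Function.leftInverse_invFun RS.α_inj j])
  obtain ⟨c, hc⟩ : ∃ c, Γ.P (l.map R.α) c' = Pr Γ 1 l c := ⟨fun j => c' (R.α j), by
    simp only [Pr, RG.P, List.map_map, one_smul]; rfl⟩
  rw [hc] at h3 ⊢
  have h4 : ∀ σ, ε σ = 1 → ∀ j ∈ l, σ (c j) = c (π σ j) := fun σ e' j hj => by
    have h5 : Pr Γ 1 l (fun j => σ (c ((π σ).symm j))) = Pr Γ 1 l c := by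
      rw [← Pr_perm hΓ hR hl (hπ σ) (.inl rfl), ← h3 σ e', Pr, Pr, map_list_prod, List.map_map,
        List.map_map]
      exact congrArg _ (List.map_congr_left fun j _ => by simp [(H.pos σ j _ e').1])
    rw [hP, hP] at h5
    have := hΓ.P_inj hR nd' (fun γ h => (RS.cl_Inv _).1 ((inv_or hR hl γ).1 h)) h5 _
      (List.mem_map_of_mem (hπ σ j hj))
    simpa only [Function.leftInverse_invFun RS.α_inj _, Equiv.symm_apply_apply] using this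
  have h5 : hΓ.hT s * A θ (Pr Γ 1 l c) * (hΓ.hT s)⁻¹ =
      Pr Γ (-1) l fun j => nd d s j * θ (c ((π θ).symm j)) := by
    rw [← Pr_perm hΓ hR hl (hπ θ) (.inr rfl), ← MulAut.conj_apply, Pr, Pr, map_list_prod,
      map_list_prod, List.map_map, List.map_map, List.map_map]
    refine congrArg _ (List.map_congr_left fun j _ => ?_)
    simp only [Function.comp_apply, one_smul, neg_smul, (H.neg θ j _ e).1, MulAut.conj_apply,
      hΓ.hT_x s (hR.neg_mem (hR.simple _)), chi0_apply, RS.pr_neg, RS.pr_α, P011UGA.nd,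
      Equiv.symm_apply_apply, Units.val_mul]
    rw [← mul_assoc, mul_comm _ (d _ : K)]
  obtain ⟨a', t, ht, b', e2⟩ := gauss hΓ hR hl (c := c)
    (e := fun j => nd d s j * θ (c ((π θ).symm j))) fun j hj c0 => by
      refine no _ s j (hx.mul h1) h2 fun θ' e' e'' => ⟨(c j)⁻¹, fun σ a b => ?_, ?_⟩
      · rw [map_inv₀, h4 σ a j hj, b]
      · have h6 := h4 (θ⁻¹ * θ') (by simp [e, e']) j hj
        rw [map_mul, map_inv, Equiv.Perm.mul_apply, e''] at h6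
        have h7 : θ' (c j) = θ (c ((π θ).symm j)) :=
          (θ.apply_symm_apply _).symm.trans (congrArg θ h6)
        rw [map_inv₀, h7, ← mul_inv, eq_comm]
        exact inv_eq_of_mul_eq_one_left (by rw [sub_eq_zero.1 c0]; ring)
  have r2 : Γ.Rep (A θ (Γ.nd l)) (R.wd l) := by
    have : ∀ m, Γ.Rep (A θ (Γ.nd m)) (R.wd (m.map (π θ))) := fun m => by
      induction m with
      | nil => simpa [RG.nd, RS.wd_nil] using RG.rep_T (one_mem Γ.T)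
      | cons j m ih =>
        rw [RG.nd_cons, map_mul, List.map_cons, RS.wd_cons]
        exact (H.nn e j).mul ih
    have h6 := rep_nd (Γ := Γ) (l.map (π θ))
    rw [nd_perm hΓ hR hl (hπ θ)] at h6
    exact hΓ.rep_unique hR h6 (rep_nd l) ▸ this l
  have r3 := r2.T_mul (mul_mem ht (hΓ.hT_mem s))
  refine ⟨_, hΓ.Lg_V hR rn lg (Pr_mem hR (.inr rfl) (S := {γ | γ ≤ 0 ∧ R.In {j | j ∈ l} γ}) (fun j hj => ⟨by
    simpa using RS.α_nonneg j, (RS.In_α hj).smul _⟩) a') |> UJ_le _, _,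
    (hΓ.rep_div hR (rep_nd l) r3).2, _, VJ_le _ (hΓ.Lg_U hR (hR.Lg_inv lg ▸ (r2.T_mul
      (hΓ.hT_mem s)).inv) lg (inv_mem (Pr_mem hR (.inl rfl) (fun j hj => by
        simpa using ⟨hR.simple j, RS.α_nonneg j, RS.In_α hj⟩) b'))), ?_⟩
  rw [map_mul, map_mul, h2, eq_inv_mul_iff_mul_eq.2 (mul_inv_eq_iff_eq_mul.1 h5),
    inv_mul_eq_iff_eq_mul.1 e2]
  group

theorem exists_fix (e : ε θ = -1) (ho : Ort R π) (hf : ∀ i, ∃ τ, ε τ = -1 ∧ π τ i = i)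
    (no : ∀ g s j, Fx A ε g → A θ g = g * H.hΓ.hT s → ¬Iso ε π j (nd d s j)) {v : R.Aut}
    (hv : v ∈ R.W) (h : ∀ σ, ε σ = 1 → ∀ γ, v (pm (π σ) γ) = pm (π σ) (v γ)) :
    ∃ n, Γ.Rep n v ∧ ∀ x, Fx A ε x → Gd Γ (A θ) x → Fx A ε (x * n) ∧ Gd Γ (A θ) (x * n) := by
  classical
  have hΓ := H.hΓ
  have hR := H.hR
  induction hl : R.len v using Nat.strong_induction_on generalizing v with
  | _ m ih =>
    by_cases h1 : v = 1
    · exact ⟨1, h1 ▸ rep_T (one_mem _), fun x a b => by rw [mul_one]; exact ⟨a, b⟩⟩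
    obtain ⟨i, -, hi⟩ := hR.exists_neg hv h1
    obtain ⟨l, l1, l2⟩ : ∃ l : List (Fin R.r), l.Nodup ∧ ∀ j, j ∈ l ↔ j ∈ orb π i :=
      ⟨(Finset.univ.filter (· ∈ orb π i)).toList, Finset.nodup_toList _, by simp⟩
    have l3 : Or R l := l1.imp_of_mem fun {a b} ha hb c => ⟨c, by
      obtain ⟨σ, rfl⟩ := (l2 a).1 ha
      obtain ⟨τ, rfl⟩ := (l2 b).1 hb
      simpa using ho (σ * τ⁻¹) (π τ i) (by simpa using c)⟩
    have l4 : ∀ σ, ∀ j ∈ l, π σ j ∈ l := fun σ j hj => by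
      obtain ⟨τ, rfl⟩ := (l2 j).1 hj
      exact (l2 _).2 ⟨σ * τ, by simp⟩
    have l5 : ∀ j ∈ {j | j ∈ l}, v (R.α j) ≤ 0 := fun j hj => by
      obtain ⟨σ, rfl⟩ := (l2 j).1 hj
      obtain ⟨τ, a, b⟩ : ∃ τ, ε τ = 1 ∧ π σ i = π τ i := by
        obtain ⟨τ, a, b⟩ := hf i
        rcases Int.units_eq_one_or (ε σ) with c | c
        exacts [⟨σ, c, rfl⟩, ⟨σ * τ, by simp [a, c], by simp [b]⟩]
      rw [b, ← pm_α, h τ a]
      exact fun _ => hi _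
    have lg := lg_or hR l3
    have hw := RS.wd_mem_W (R := R) l
    have h2 := hR.len_mul hv hw
    rw [hR.Lg_inv lg, Set.inter_eq_right.2 (hR.Lg_Inv lg ▸ fun γ c =>
      ⟨c.1, c.2.1, map_nonpos l5 c.2.1 c.2.2⟩)] at h2
    have h3 : 0 < R.len (R.wd l) := (Set.ncard_pos (RS.Inv_finite _)).2
      ⟨_, (inv_or hR l3 _).1 (List.mem_map_of_mem ((l2 i).2 ⟨1, by simp⟩))⟩
    obtain ⟨n, r, h4⟩ := ih _ (by unfold RS.len at *; omega) (mul_mem hv hw) (fun σ e' γ => by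
      obtain ⟨w', r1, r2⟩ := H.prep e' (rep_nd l)
      rw [H.fx_nd l3 l4 σ e'] at r1
      obtain rfl := hΓ.rep_unique hR (rep_nd l) r1
      rw [RS.mul_app, RS.mul_app, r2, h σ e']) rfl
    have h5 := r.mul (rep_nd l)
    rw [mul_assoc, hR.Lg_mul_self lg, mul_one] at h5
    refine ⟨n * Γ.nd l, h5, fun x a b => ?_⟩
    rw [← mul_assoc]
    exact ⟨(h4 x a b).1.mul (H.fx_nd l3 l4), H.step e no l3 l4 (h4 x a b).1 (h4 x a b).2⟩

variable [Infinite K] {J : Set (Fin R.r)}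

theorem fix_u {m : G} {v : R.Aut} (hm : Γ.Rep m v) (hv : ∀ j ∈ J, 0 ≤ v (R.α j))
    (hu : u ∈ Γ.X (R.Inv v⁻¹)) (h : St Γ A J (u * m)) (e : ε σ = 1) :
    A σ u = u ∧ ∀ γ, v (pm (π σ) γ) = pm (π σ) (v γ) := by
  have hΓ := H.hΓ
  have hR := H.hR
  obtain ⟨h1, h2⟩ := std_PJ hΓ hR (ψ := MulAut.conj (u * m)⁻¹ * A σ * MulAut.conj (u * m))
    (g := (u * m)⁻¹ * A σ (u * m)) (c := 1) (J := J) (σ := σ) ⟨H.dg σ, fun i a => by
      simp [(H.pos σ i a e).1, (H.pos σ i a e).2, mul_assoc]⟩ σ.surjective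
      fun p hp => by simpa [mul_assoc] using h σ p hp
  obtain ⟨z, hz, -⟩ := exists_dom hR J
  obtain ⟨r, hr, _, hg, e1⟩ := (mem_PJ hΓ hR hz).1 (inv_mem h1)
  obtain ⟨a, ha, n, hn, b, hb, rfl⟩ := hΓ.bruhat0 hR hg
  obtain ⟨w, hw, hn⟩ := exists_rep hn
  obtain ⟨v', r1, r2⟩ := H.prep e hm
  have hu' := X_le_U (RS.cl_Inv _).1 hu
  have e2 : (A σ m)⁻¹ * (A σ u)⁻¹ = r * (a * n * b) * m⁻¹ * u⁻¹ := by rw [e1, map_mul]; group
  obtain rfl := hΓ.cell_eq' hR (hm.mul hn.inv) r1 (U_le_Bo (mul_mem (mul_mem (inv_mem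
    (H.pX e (fun _ h _ => pm_nonneg h) hu')) hu') (hΓ.rep_X hR hm (S' := {γ | 0 ≤ γ})
      (fun _ h _ => map_nonneg hv h.2.1 h.2.2) (inv_mem hb))))
      (U_le_Bo (inv_mem (mul_mem (RJ_le_U hr) (UJ_le _ ha)))) (by
        rw [← inv_inv (A σ m), eq_mul_inv_of_mul_eq e2]; group)
  obtain rfl : w = 1 := inv_eq_one.1 (hR.eq_one (inv_mem hw) fun j hj => by
    have h3 := hR.map_mem (inv_mem hn.mem_W) (hR.simple j)
    refine (hR.sign' (inv_mem hn.mem_W) (hR.simple j)).resolve_right fun c => ?_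
    have h4 := map_nonneg hv (neg_nonneg.2 c) (hR.map_In (inv_mem hw) (RS.In_α hj)).neg
    rw [map_neg, neg_nonneg] at h4
    refine hR.not_both (hR.map_mem hm.mem_W h3) ?_ h4
    rw [← RS.mul_app, ← (π σ).apply_symm_apply j, ← pm_α, r2]
    exact pm_nonneg (hv _ ((h2 _).1 (by simpa using hj))))
  rw [inv_one, mul_one] at r1 r2
  have hn' := hΓ.rep_one hR hn
  refine ⟨inv_injective (hΓ.bruhat_unique hR r1.inv (hm.inv.T_mul hn') (one_mem _)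
    (mul_mem (mul_mem (RJ_le_U hr) (UJ_le _ ha)) (hΓ.nm_T_X _ _ hn' _ (UJ_le _ hb)))
    (inv_mem (H.pX e (fun γ h _ => ⟨pm_mem hR (H.dg σ) γ h.1, pm_nonneg h.2.1, ?_⟩) hu))
    (inv_mem hu) (by rw [one_mul, e2]; group)).2.2, r2⟩
  rw [← RS.app_inv v γ, ← r2, RS.inv_app]
  exact fun _ => h.2.2 _

theorem univ_of (e : ε θ = -1) (h : St Γ A J x) (h' : Gd Γ (A θ) x) : J = Set.univ := by
  obtain ⟨a, ha, t, ht, b, hb, h'⟩ := h'
  refine Set.eq_univ_of_forall fun i => RS.mem_of_In (R := R) ?_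
  have h1 := H.hR.neg_mem (H.hR.simple i)
  have h2 := neg_nonpos.2 (RS.α_nonneg (R := R) i)
  have h3 := h θ _ (U_le_PJ (H.nV (θ := θ⁻¹) (by simp [e])
    (mul_mem (mul_mem (inv_mem hb) (x_mem h1 h2 1)) hb)))
  have h4 := mul_mem (U_le_PJ (J := J) ha) (GJ_le_PJ (mem_sup_right ht))
  rw [map_mul, map_mul, Am, mul_inv_cancel, map_one, map_inv, inv_mul_eq_iff_eq_mul.1 h'] at h3
  simpa using (In_of_mem H.hΓ H.hR h1 h2 one_ne_zero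
    (mem_eq (mul_mem (mul_mem (inv_mem h4) h3) h4) (by rw [MulAut.one_apply]; group))).neg

theorem main (e : ε θ = -1) (ho : Ort R π) (hf : ∀ i, ∃ τ, ε τ = -1 ∧ π τ i = i)
    (no : ∀ g s j, Fx A ε g → A θ g = g * H.hΓ.hT s → ¬Iso ε π j (nd d s j))
    (h : St Γ A J y) : J = Set.univ := by
  obtain ⟨m, v, hm, hv, u, hu, p, hp, rfl⟩ := min_rep H.hΓ H.hR J y
  have h1 := h.mul (inv_mem hp)
  rw [mul_inv_cancel_right] at h1
  obtain ⟨n, hn, h2⟩ := H.exists_fix e ho hf no hm.mem_W fun σ e => (H.fix_u hm hv hu h1 e).2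
  have h3 := h1.mul (GJ_le_PJ (mem_sup_right (H.hΓ.rep_div H.hR hm hn).2))
  rw [mul_assoc, mul_inv_cancel_left] at h3
  refine H.univ_of e h3 (h2 u (fun σ e => (H.fix_u hm hv hu h1 e).1) ?_).2
  exact one_mul u ▸ H.gd_U e ⟨1, one_mem _, 1, one_mem _, 1, one_mem _, by simp⟩
    (X_le_U (RS.cl_Inv _).1 hu)

end OW

theorem isof : ISOF := by
  intro k K _ _ _ _ _ D hD T ε π d h ho ⟨θ, e⟩ hA
  haveI := Infinite.of_injective _ (algebraMap k K).injective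
  obtain ⟨J, hJ, y, hy⟩ := P011UV.par_of_iso k K D hD T hA
  by_contra c
  push Not at c
  refine hJ (OW.main (A := T.a) ⟨GG_ok, Chev.R_ok D, h.dg, h.pos, h.neg⟩ e ho (fun i => by_contra
    fun c' => c 1 1 i ⟨fun _ _ => map_one _, fun _ _ => by simp⟩ fun τ a b => (c' ⟨τ, a, b⟩).elim)
    (fun g s j a b => c g s j ⟨a, fun σ e' => (a.eq (e'.trans e.symm)).trans b⟩) hy)

end Vale.Agent.P011UGI
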